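import Vale.Agent.P321.Super.Endgame
import Vale.Agent.P321.Super.Centre
import Vale.Agent.P321.Super.Induction
import Vale.Agent.P321.Super.ThresholdStmt

/-!
# P321: worst-case trace reconstruction needs superpolynomially many traces

A trace of `x : Fin n → Bool` is read off from the set `S` of kept positions, which has probability
`(1 - q) ^ |S| * q ^ (n - |S|)`. A randomized estimator is a map from tuples of strings to
probability vectors on `Fin n → Bool`.
-/

namespace Vale.Agent.Results.P321.SuperpolynomialLowerBound

open Filter Finset

open Vale.Agent.P321.Super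
/-- For every deletion probability `q` in `(0, 1)` and every exponent `A`, for all large `n`, every
randomized estimator that reconstructs each string of length `n` from `m` traces with probability
at least `2/3` has `n ^ A ≤ m`: the sample complexity is not bounded by a polynomial. -/
theorem result (q : ℝ) (hq0 : 0 < q) (hq1 : q < 1) (A : ℕ) :
    ∀ᶠ n : ℕ in atTop, ∀ (m : ℕ)
      (est : (Fin m → List Bool) → (Fin n → Bool) → ℝ),
      (∀ T x, 0 ≤ est T x) → (∀ T, ∑ x, est T x = 1) →
      (∀ x : Fin n → Bool, 2 / 3 ≤ ∑ S : Fin m → Finset (Fin n),
        (∏ j, (1 - q) ^ (S j).card * q ^ (n - (S j).card)) *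
          est (fun j => ((List.finRange n).filter (fun i => i ∈ S j)).map x) x) →
      (n : ℝ) ^ A ≤ m := by
  have h := Vale.Agent.P321.superpolynomial (p := 1 - q) (by linarith) (by linarith)
    (Vale.Agent.P321.Super.pairs_of (by linarith) (by linarith) Lev.Inv.centre_next
      (fun r κ0 => Lev.Inv.single r 62 κ0)
      (thresh_stmt (by linarith) (by linarith))) A
  filter_upwards [h] with n hn m est h0 h1 hs
  exact hn m est h0 h1 (by simpa only [sub_sub_cancel] using hs)

end Vale.Agent.Results.P321.SuperpolynomialLowerBound
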